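import Vale.Agent.P254B.Base

/-! Green and Bochner identities without symmetry. -/

namespace Vale.Agent.P254B

open Vale.Agent.P227 hiding Pot ASolv APri
open scoped ContDiff Matrix RealInnerProductSpace Topology
open MeasureTheory Filter

variable {n : ℕ}

variable {Θ W f g : E n → ℝ}

theorem Pot.ell (h : Pot Θ W) : ∃ c K : ℝ, 0 < c ∧ 0 < K ∧ Ell c K (tau Θ) := by
  obtain ⟨c, hc, h1⟩ := h.low
  obtain ⟨M, hM, h2⟩ := h.mT.n2 0
  have hK : 0 < n * M + 1 := by positivity
  refine ⟨1 / (n * M + 1), 1 / c, by positivity, by positivity, fun x => ?_⟩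
  refine Ell1.inv ⟨hess_symm h.sT x, fun ξ => ⟨h1 x ξ, ?_⟩⟩ hc hK
  have h3 := (le_abs_self _).trans
    (abs_qf_le (A := hess Θ x) (fun i j => h2.abs_le i j x) ξ)
  nlinarith [sq_nonneg ‖ξ‖]
theorem Pot.mbinf (h : Pot Θ W) : MBinf (tau Θ) := by
  obtain ⟨c, K, hc, -, h1⟩ := h.ell
  exact h.mT.mbinf.inv h.unit fun x i j => (h1 x).abs_le hc.le i j
theorem Pot.mpg (h : Pot Θ W) : MPG (tau Θ) := h.mbinf.mpg

theorem Pot.pg_b (h : Pot Θ W) (hg : PG g) (i : Fin n) :
    PG fun y => ∑ a, tau Θ y i a * D a g y :=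
  pg_sum _ fun a _ => (h.mpg i a).mul (hg.D a)

theorem Pot.green (h : Pot Θ W) (hW : Coer W) (hf : PG f) (hg : PG g) :
    Ex W (fun x => f x * Lop (tau Θ) g x) = -Ex W (Gam (tau Θ) f g) := by
  have := Ex_div hW h.mW.pg (h.pg_b hg) hf
  simp only [h.toLPot.div_grad hg.smo] at this
  rw [this]
  refine congrArg (fun u => -Ex W u) (funext fun x => ?_)
  simp only [Gam, Finset.sum_mul]
  exact Finset.sum_congr rfl fun i _ => Finset.sum_congr rfl fun a _ => by ring

theorem Pot.Ex_L (h : Pot Θ W) (hW : Coer W) (hg : PG g) : Ex W (Lop (tau Θ) g) = 0 := by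
  have := h.green hW (pg_const 1) hg
  simpa [Gam, D_const, Ex] using this

/-- `E (Lg)² = -E τ^{kl} ∂_k(Lg) g_l`; insert `D_L`; with `b_k = τ^{kl} g_l`,
`-E b_k L g_k = E Gam b_k g_k` (green); the two terms containing `T` cancel by symmetry of `t`. -/
theorem Pot.bochner (h : Pot Θ W) (hW : Coer W) (hg : PG g) :
    Ex W (fun x => Lop (tau Θ) g x ^ 2) =
      Ex W (fun x => (tau Θ x * hess g x * tau Θ x * hess g x).trace) +
        Ex W (Gam (tau Θ) g g) := by
  have cW := h.sW.continuous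
  have hL := hg.Lop h.mpg
  have hb := h.pg_b hg
  have p1 := fun k => (hb k).mul ((hg.D k).Lop h.mpg)
  have p2 := fun k => (hb k).Gam (hg.D k) h.mpg
  have p3 : PG fun x => (tau Θ x * hess g x * tau Θ x * hess g x).trace :=
    (((h.mpg.mul hg.hess).mul h.mpg).mul hg.hess).trace
  have p4 := hg.Gam hg h.mpg
  have e1 := h.green hW hL hg
  have e2 : Ex W (fun x => ∑ k, ((∑ a, tau Θ x k a * D a g x) * Lop (tau Θ) (D k g) x +
      Gam (tau Θ) (fun y => ∑ a, tau Θ y k a * D a g y) (D k g) x)) = 0 := by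
    rw [Ex_sum hW cW _ fun k _ => ((p1 k).add (p2 k)).cpb]
    refine Finset.sum_eq_zero fun k _ => ?_
    rw [Ex_add hW cW (p1 k).cpb (p2 k).cpb, h.green hW (hb k) (hg.D k), neg_add_cancel]
  have e3 : (fun x => ∑ k, ((∑ a, tau Θ x k a * D a g x) * Lop (tau Θ) (D k g) x +
      Gam (tau Θ) (fun y => ∑ a, tau Θ y k a * D a g y) (D k g) x)) = fun x =>
      Gam (tau Θ) (Lop (tau Θ) g) g x +
        ((tau Θ x * hess g x * tau Θ x * hess g x).trace + Gam (tau Θ) g g x) := by
    funext x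
    have d1 : ∀ k p, D p (fun y => ∑ a, tau Θ y k a * D a g y) x =
        ∑ l, tau Θ x k l * hess g x p l -
          ∑ l, (tau Θ x * hess (D p Θ) x * tau Θ x) k l * D l g x := fun k p => by
      change D p (fun y => ∑ a, ent (tau Θ) k a y * D a g y) x = _
      rw [D_sum p _ fun a _ => ((h.mpg k a).mul (hg.D a)).diff, ← Finset.sum_sub_distrib]
      refine Finset.sum_congr rfl fun l _ => ?_
      rw [D_mul p (h.mpg k l).diff (hg.D l).diff]
      beta_reduce
      rw [← MD_apply, h.toLPot.MD_tau, Matrix.neg_apply, hess_apply, ent]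
      ring
    have a1 := Green.alg1 (h.toLPot.tau_symm x) (hess_symm hg.smo x)
    have a2 := Green.alg2 (H := hess g x) (h.toLPot.tau_symm x) (hessD_sym h.sT x)
      fun l => D l g x
    simp only [Gam, d1, h.toLPot.D_L hg.smo, ← hess_apply, mul_sub, sub_mul,
      Finset.sum_add_distrib, Finset.sum_sub_distrib, a1, a2]
    have c : ∀ F : Fin n → ℝ, ∑ k, ∑ l, tau Θ x k l * F k * D l g x =
        ∑ k, ∑ l, tau Θ x k l * D l g x * F k := fun F =>
      Finset.sum_congr rfl fun k _ => Finset.sum_congr rfl fun l _ => mul_right_comm _ _ _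
    rw [c fun k => Lop (tau Θ) (D k g) x,
      c fun k => (tau Θ x * hess (D k Θ) x * tau Θ x * hess g x).trace]
    simp only [Finset.sum_mul]
    ring
  rw [e3, Ex_add hW cW (hL.Gam hg h.mpg).cpb (p3.add p4).cpb, Ex_add hW cW p3.cpb p4.cpb] at e2
  simp only [sq]
  linarith

theorem Pot.cen (h : Pot Θ W) (hW : Coer W) : Cen W := fun i => by
  have h1 := h.Ex_L hW (pg_coord i)
  rw [Lop_coord, Ex_neg, neg_eq_zero] at h1
  rw [m1, nm, h1, zero_div]

end Vale.Agent.P254B
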